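import Vale.Agent.P033.Bdl.B1

namespace Vale.Agent.Results.P033.PowerSaving

open scoped Classical in
theorem result :
    ∃ C : ℝ, 0 < C ∧ ∀ N : ℕ,
      (((Finset.Icc 1 N).filter
        (fun n => Vale.Agent.P033.IsCirculantHadamardOrder n)).card : ℝ)
        ≤ C * (N : ℝ) ^ (1 / 2 - 1 / 500 : ℝ) :=
  Vale.Agent.P033.count_orders

end Vale.Agent.Results.P033.PowerSaving
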